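import Mathlib
import Vale.Agent.Lib.P248.helper37.Q2Defs

/-!
# P248 (helper33): the cone over the `k`-negative part of the polar of a facet

`polK_piece`: for an admissible pair `(A, z)` and a coordinate `i`, the part of the polar of `A`
about `z` with `k + 1` negative coordinates, one of them the `i`-th, has volume at least
`1 / ((n + 1) z i)` times the volume of the part with `k` negative coordinates of the polar of
the section `sec A i` about the remaining coordinates of `z`.
-/

open MeasureTheory Set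

open scoped Pointwise

namespace Vale.Agent.Lib.P248.H33Q

open Vale.Agent.Lib.P248.H37 Vale.Agent.Lib.P248.H37Q

theorem mem_polZ {m : ℕ} {A : Set (Fin m → ℝ)} {z y : Fin m → ℝ} :
    y ∈ polZ A z ↔ ∀ x ∈ A, ∑ i, (x i - z i) * y i ≤ 1 := Iff.rfl

theorem mem_polK {m : ℕ} {A : Set (Fin m → ℝ)} {z y : Fin m → ℝ} {k : ℕ} :
    y ∈ polK A z k ↔ y ∈ polZ A z ∧ negCount y = k := Iff.rfl

theorem negCount_eq_sum {m : ℕ} (y : Fin m → ℝ) :
    negCount y = ∑ i, if y i < 0 then 1 else 0 := by
  have h : negCount y = (Finset.univ.filter (fun i => y i < 0)).card := rfl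
  rw [h, Finset.card_filter]

theorem measurable_negCount {m : ℕ} : Measurable (negCount : (Fin m → ℝ) → ℕ) := by
  have h : (negCount : (Fin m → ℝ) → ℕ) = fun y => ∑ i, if y i < 0 then 1 else 0 :=
    funext negCount_eq_sum
  rw [h]
  refine Finset.measurable_sum _ fun i _ => ?_
  exact Measurable.ite (measurableSet_lt (measurable_pi_apply i) measurable_const)
    measurable_const measurable_const

theorem isClosed_polZ {m : ℕ} (A : Set (Fin m → ℝ)) (z : Fin m → ℝ) : IsClosed (polZ A z) := by
  have h : polZ A z = ⋂ x ∈ A, {y : Fin m → ℝ | ∑ i, (x i - z i) * y i ≤ 1} := by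
    ext y
    rw [mem_polZ, mem_iInter₂]
    rfl
  rw [h]
  refine isClosed_biInter fun x _ => ?_
  exact isClosed_le (continuous_finsetSum _ fun i _ => continuous_const.mul (continuous_apply i))
    continuous_const

theorem measurableSet_polK {m : ℕ} (A : Set (Fin m → ℝ)) (z : Fin m → ℝ) (k : ℕ) :
    MeasurableSet (polK A z k) := by
  have h : polK A z k = polZ A z ∩ negCount ⁻¹' {k} := rfl
  rw [h]
  exact (isClosed_polZ A z).measurableSet.inter (measurable_negCount (measurableSet_singleton k))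

theorem lintegral_profile (n : ℕ) (c : ℝ) (hc : 0 < c) :
    ∫⁻ t in Ioo (-(1 / c)) (0 : ℝ), ENNReal.ofReal ((1 + c * t) ^ n) =
      ENNReal.ofReal (1 / (((n : ℝ) + 1) * c)) := by
  have hcont : Continuous (fun t : ℝ => (1 + c * t) ^ n) := by fun_prop
  have hle : -(1 / c) ≤ 0 := by
    have := one_div_pos.mpr hc
    linarith
  have hint : IntegrableOn (fun t : ℝ => (1 + c * t) ^ n) (Ioo (-(1 / c)) (0 : ℝ)) :=
    (hcont.integrableOn_Icc).mono_set Ioo_subset_Icc_self
  have hnn : 0 ≤ᵐ[volume.restrict (Ioo (-(1 / c)) (0 : ℝ))] (fun t : ℝ => (1 + c * t) ^ n) := by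
    refine (ae_restrict_iff' measurableSet_Ioo).mpr (Filter.Eventually.of_forall fun t ht => ?_)
    have h1 : 0 ≤ 1 + c * t := by
      have h2 := mul_lt_mul_of_pos_left ht.1 hc
      have h3 : c * (-(1 / c)) = -1 := by field_simp
      linarith
    exact pow_nonneg h1 n
  rw [← ofReal_integral_eq_lintegral_ofReal hint hnn]
  congr 1
  rw [← integral_Ioc_eq_integral_Ioo, ← intervalIntegral.integral_of_le hle]
  have hderiv : ∀ x ∈ uIcc (-(1 / c)) (0 : ℝ),
      HasDerivAt (fun t : ℝ => (1 / (((n : ℝ) + 1) * c)) * (1 + c * t) ^ (n + 1))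
        ((1 + c * x) ^ n) x := by
    intro x _
    have h1 : HasDerivAt (fun t : ℝ => 1 + c * t) c x := by
      have h0 := ((hasDerivAt_id x).const_mul c).const_add 1
      simpa using h0
    have h2 := (h1.pow (n + 1)).const_mul (1 / (((n : ℝ) + 1) * c))
    refine h2.congr_deriv ?_
    have hn : (n : ℝ) + 1 ≠ 0 := by positivity
    rw [Nat.add_sub_cancel]
    push_cast
    field_simp
  rw [intervalIntegral.integral_eq_sub_of_hasDerivAt hderiv (hcont.intervalIntegrable _ _)]
  have h0 : 1 + c * (-(1 / c)) = 0 := by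
    field_simp
    ring
  rw [h0]
  simp

theorem piece_mem {n : ℕ} {A : Set (Fin (n + 1) → ℝ)} {z : Fin (n + 1) → ℝ} (h : Adm A z)
    (i : Fin (n + 1)) (k : ℕ) (t : ℝ) (ht1 : -(1 / z i) < t) (ht0 : t < 0) (w : Fin n → ℝ)
    (hw : w ∈ polK (sec A i) (fun j => z (i.succAbove j)) k) :
    (Fin.insertNth i t ((1 + z i * t) • w) : Fin (n + 1) → ℝ) ∈
      polK A z (k + 1) ∩ {y | y i < 0} := by
  have hz : 0 < z i := h.pos i
  have hlam : 0 < 1 + z i * t := by
    have h2 := mul_lt_mul_of_pos_left ht1 hz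
    have h3 : z i * (-(1 / z i)) = -1 := by field_simp
    linarith
  obtain ⟨hwZ, hwk⟩ := hw
  have hyi : (Fin.insertNth i t ((1 + z i * t) • w) : Fin (n + 1) → ℝ) i = t := ins_same i t _
  have hys : ∀ j, (Fin.insertNth i t ((1 + z i * t) • w) : Fin (n + 1) → ℝ) (i.succAbove j) =
      (1 + z i * t) * w j := fun j => by
    rw [ins_succ]
    rfl
  refine ⟨⟨?_, ?_⟩, ?_⟩
  · intro x hx
    rw [Fin.sum_univ_succAbove _ i, hyi]
    simp only [hys]
    have hx' : (fun j => x (i.succAbove j)) ∈ sec A i := by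
      show (Fin.insertNth i (0 : ℝ) (fun j => x (i.succAbove j)) : Fin (n + 1) → ℝ) ∈ A
      refine h.good.down x hx _ fun j => ?_
      by_cases hj : j = i
      · subst hj
        rw [ins_same]
        exact ⟨le_refl _, h.good.nonneg x hx _⟩
      · obtain ⟨j', rfl⟩ := Fin.exists_succAbove_eq hj
        rw [ins_succ]
        exact ⟨h.good.nonneg x hx _, le_refl _⟩
    have h1 : ∑ j, (x (i.succAbove j) - z (i.succAbove j)) * w j ≤ 1 := hwZ _ hx'
    have hxi := h.good.nonneg x hx i
    have e : ∑ j, (x (i.succAbove j) - z (i.succAbove j)) * ((1 + z i * t) * w j) =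
        (1 + z i * t) * ∑ j, (x (i.succAbove j) - z (i.succAbove j)) * w j := by
      rw [Finset.mul_sum]
      exact Finset.sum_congr rfl fun j _ => by ring
    rw [e]
    nlinarith [mul_nonneg hxi (neg_nonneg.mpr ht0.le), mul_le_mul_of_nonneg_left h1 hlam.le]
  · rw [negCount_eq_sum, Fin.sum_univ_succAbove _ i, hyi, if_pos ht0]
    simp only [hys]
    rw [negCount_eq_sum] at hwk
    rw [← hwk, add_comm]
    congr 1
    refine Finset.sum_congr rfl fun j _ => ?_
    have hiff : (1 + z i * t) * w j < 0 ↔ w j < 0 := by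
      constructor
      · intro h'
        by_contra hc
        have hc' : 0 ≤ w j := not_lt.mp hc
        nlinarith [mul_nonneg hlam.le hc']
      · intro h'
        exact mul_neg_of_pos_of_neg hlam h'
    simp only [hiff]
  · show (Fin.insertNth i t ((1 + z i * t) • w) : Fin (n + 1) → ℝ) i < 0
    rw [hyi]
    exact ht0

theorem polK_piece {n : ℕ} {A : Set (Fin (n + 1) → ℝ)} {z : Fin (n + 1) → ℝ} (h : Adm A z)
    (i : Fin (n + 1)) (k : ℕ) :
    ENNReal.ofReal (1 / (((n : ℝ) + 1) * z i)) *
        volume (polK (sec A i) (fun j => z (i.succAbove j)) k) ≤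
      volume (polK A z (k + 1) ∩ {y | y i < 0}) := by
  have hz : 0 < z i := h.pos i
  have hTm : MeasurableSet (polK A z (k + 1) ∩ {y : Fin (n + 1) → ℝ | y i < 0}) :=
    (measurableSet_polK A z (k + 1)).inter
      (measurableSet_lt (measurable_pi_apply i) measurable_const)
  have hT' : MeasurableSet ((MeasurableEquiv.piFinSuccAbove (fun _ : Fin (n + 1) => ℝ) i).symm ⁻¹'
      (polK A z (k + 1) ∩ {y : Fin (n + 1) → ℝ | y i < 0})) :=
    (MeasurableEquiv.piFinSuccAbove (fun _ : Fin (n + 1) => ℝ) i).symm.measurable hTm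
  have hvol : volume (polK A z (k + 1) ∩ {y : Fin (n + 1) → ℝ | y i < 0}) =
      (volume : Measure (ℝ × (Fin n → ℝ)))
        ((MeasurableEquiv.piFinSuccAbove (fun _ : Fin (n + 1) => ℝ) i).symm ⁻¹'
          (polK A z (k + 1) ∩ {y : Fin (n + 1) → ℝ | y i < 0})) := by
    have hpre : polK A z (k + 1) ∩ {y : Fin (n + 1) → ℝ | y i < 0} =
        (MeasurableEquiv.piFinSuccAbove (fun _ : Fin (n + 1) => ℝ) i) ⁻¹'
          ((MeasurableEquiv.piFinSuccAbove (fun _ : Fin (n + 1) => ℝ) i).symm ⁻¹'
            (polK A z (k + 1) ∩ {y : Fin (n + 1) → ℝ | y i < 0})) := by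
      ext y
      rw [mem_preimage, mem_preimage, MeasurableEquiv.symm_apply_apply]
    conv_lhs => rw [hpre]
    exact (volume_preserving_piFinSuccAbove (fun _ => ℝ) i).measure_preimage_equiv _
  rw [hvol, Measure.volume_eq_prod, Measure.prod_apply hT', ← lintegral_profile n (z i) hz,
    ← lintegral_mul_const _ (by fun_prop)]
  refine le_trans ?_ (setLIntegral_le_lintegral (Ioo (-(1 / z i)) 0) _)
  refine setLIntegral_mono' measurableSet_Ioo fun t ht => ?_
  have hlam : 0 < 1 + z i * t := by
    have h2 := mul_lt_mul_of_pos_left ht.1 hz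
    have h3 : z i * (-(1 / z i)) = -1 := by field_simp
    linarith
  have hsm : ENNReal.ofReal ((1 + z i * t) ^ n) *
      volume (polK (sec A i) (fun j => z (i.succAbove j)) k) =
      volume ((1 + z i * t) • polK (sec A i) (fun j => z (i.succAbove j)) k) := by
    rw [Measure.addHaar_smul, Module.finrank_fin_fun, abs_of_nonneg (pow_nonneg hlam.le n)]
  rw [hsm]
  apply measure_mono
  rintro v ⟨w, hw, rfl⟩
  exact piece_mem h i k t ht.1 ht.2 w hw

end Vale.Agent.Lib.P248.H33Q
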